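import Vale.Agent.P092EH.Ex
import Vale.Agent.P092GK.Dd
import Vale.Agent.P092RD.Mag

/-!
P092 (helper3): ergodicity of `(H, a) × P'` on the coupling algebra in higher rank.
-/

set_option linter.all false

open scoped InnerProductSpace ENNReal NNReal Pointwise
open MeasureTheory Filter Topology ContinuousLinearMap Set

namespace Vale.Agent.P092EH

open Vale.Agent.P092CP Vale.Agent.P092RD Vale.Agent.P092GK
open Vale.Agent.P092RE (Up Lo meas_Tr lo_cover ad_comm ad_ad ad_adj ad_sub comm_ad comm_adj)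
open Vale.Agent.P092RS (ad)
open Vale.Agent.P092.RC (Cm Moore)

variable {G G' K : Type} [Group G] [TopologicalSpace G] [IsTopologicalGroup G]
  [LocallyCompactSpace G] [SecondCountableTopology G] [T2Space G] [MeasurableSpace G] [BorelSpace G]
  [Group G'] [TopologicalSpace G'] [IsTopologicalGroup G'] [LocallyCompactSpace G']
  [SecondCountableTopology G'] [T2Space G'] [MeasurableSpace G'] [BorelSpace G']
  [NormedAddCommGroup K] [InnerProductSpace ℂ K] [CompleteSpace K] {μ : Measure G}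
  [μ.IsHaarMeasure] {μ' : Measure G'} [μ'.IsHaarMeasure] {W : Set (K →L[ℂ] K)}
  {k : Type} [NontriviallyNormedField k] [ProperSpace k] {r : ℕ} {F : FlD k G' r}
  {X : Type} [NormedAddCommGroup X] [NormedSpace ℝ X] {H' : Subgroup G'}
  {t : (Fin r → ℝ) →ₗ[ℝ] X}

/-- the cone is covered by the shadows of a neighbourhood of the base point -/
theorem cover (h : Fl F) (μ' : Measure G') [μ'.IsHaarMeasure] [μ'.IsMulRightInvariant]
    (e : F.Ht H' t) {L : Set (G' ⧸ H')} (hL : L ∈ 𝓝 ((1 : G') : G' ⧸ H')) :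
    ∃ c : ℝ≥0∞, c ≠ 0 ∧ ∀ Q : Set G', IsCompact Q → ∃ Q', IsCompact Q' ∧ ∀ z, F.Dom z →
      ∀ g ∈ Q, c * eo (-F.ρ (F.ℓ z)) ≤
        μ'.restrict Q' {s | rt H' z (z⁻¹ • s • (g : G' ⧸ H')) ∈ L} := by
  obtain ⟨η, hη⟩ := exists_hm h.clUm
  obtain ⟨π, hπ⟩ := exists_hm (h.isClosed_P Finset.univ)
  obtain ⟨c, hc⟩ := h.box μ' hη hπ
  have h1 : {q : G' × G' | ((q.1 * q.2⁻¹ : G') : G' ⧸ H') ∈ L} ∈ 𝓝 ((1 : G'), (1 : G')) :=
    (QuotientGroup.continuous_mk.comp (by fun_prop : Continuous fun q : G' × G' =>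
      q.1 * q.2⁻¹)).continuousAt.preimage_mem_nhds (by simpa using hL)
  obtain ⟨U, hU, U', hU', h2⟩ := mem_nhds_prod_iff.1 h1
  obtain ⟨V, V1, hV, cV⟩ := local_compact_nhds (inter_mem hU hU')
  obtain ⟨L₀, cL, -, h3⟩ := h.um_bdd cV
  refine ⟨eo c * (η V * π V), mul_ne_zero (eo_ne_zero _) (mul_ne_zero (hη.pos' V1) (hπ.pos' V1)),
    fun Q hQ => ⟨L₀ * V⁻¹ * Q⁻¹, (cL.mul cV.inv).mul hQ.inv, fun z hz g hg => ?_⟩⟩
  have h4 := hc {u | z⁻¹ * u * z ∈ V} V
    (((measurable_const_mul _).mul_const _) cV.measurableSet) cV.measurableSet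
  rw [h.um_conj μ' hη hz.1, ← measure_preimage_mul_right μ' g] at h4
  rw [Measure.restrict_apply' ((cL.mul cV.inv).mul hQ.inv).measurableSet]
  refine le_trans (le_of_eq ?_) (h4.ge.trans (measure_mono fun s hs => ?_))
  · ring
  obtain ⟨x1, x2, x3⟩ := hs
  dsimp only at x1 x2 x3
  have p1 := h.lo_P x1
  have u1 := h.lo_mem _ x1
  have zP := h.z_mem_P hz.1 Finset.univ
  refine ⟨?_, _, ⟨_, h3 z hz _ x2 (by simpa using h.zum _ (F.Z.inv_mem hz.1) _ u1), _,
    Set.inv_mem_inv.2 x3, rfl⟩, _, Set.inv_mem_inv.2 hg, by simp only; group⟩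
  have h5 := h.mk_eq e (z⁻¹ * F.lo (s * g) * z) (mul_mem (mul_mem (inv_mem zP) p1) zP) p1 (by
    have := h.ℓ_conj (g := (F.lo (s * g))⁻¹ * (s * g)) (F.Z.inv_mem hz.1)
    rw [inv_inv] at this
    rw [this])
  have h6 := h2 (mk_mem_prod (hV x2).1 (hV x3).2)
  rw [mem_setOf_eq] at h6
  dsimp only at h6
  rw [mul_inv_rev, inv_inv, ← h5] at h6
  rw [mem_setOf_eq, mk_smul, mk_smul, rt_mk (h.Ht_nrm e zP)]
  convert h6 using 2
  group

omit [ProperSpace k] in
/-- regular elements contract the opposite big cell -/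
theorem dyn (h : Fl F) {b g : G'} (hb : b ∈ F.Z) (reg : ∀ i, 0 < F.ℓ b i) (hg : F.n₀ * g ∈ F.Ω) :
    ∃ p : ℕ → G', (∀ n, p n ∈ F.P Finset.univ) ∧
      Tendsto (fun n => (b ^ n)⁻¹ * g * p n) atTop (𝓝 F.n₀⁻¹) := by
  obtain ⟨u, hu, p, hp, e⟩ := h.Ω_iff.1 hg
  have u1 : F.n₀⁻¹ * u * F.n₀ ∈ F.Up := (h.n₀up _).2 (by simpa [mul_assoc] using hu)
  refine ⟨fun n => p⁻¹ * (F.n₀ * b ^ n * F.n₀⁻¹), fun n => mul_mem (inv_mem hp)
    (h.z_mem_P ((h.n₀Z _).1 (pow_mem hb n)) _), ?_⟩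
  have h1 : Tendsto (fun n : ℕ => (b ^ n)⁻¹ * (F.n₀⁻¹ * u * F.n₀) * b ^ n) atTop (𝓝 1) := by
    refine tendsto_def.2 fun N hN => ?_
    obtain ⟨T, -, hT⟩ := h.up_contr (isCompact_singleton (x := F.n₀⁻¹ * u * F.n₀)) hN
    filter_upwards [eventually_all.2 fun i =>
      (h.tendsto_pow hb (reg i)).eventually (eventually_ge_atTop T)] with n hn
    exact hT _ (pow_mem hb n) hn _ rfl u1
  have h2 := h1.mul_const F.n₀⁻¹
  rw [one_mul] at h2
  refine h2.congr fun n => ?_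
  rw [← inv_mul_cancel_left F.n₀ g, e]
  group

theorem comm_pow {π : G →* (K →L[ℂ] K)} {y : K →L[ℂ] K} {a : G} (h : y * π a = π a * y) (n : ℕ) :
    y * π (a ^ n) = π (a ^ n) * y := by
  rw [map_pow]
  exact (Commute.pow_right h n).eq

variable [MeasurableSpace (G' ⧸ H')] [BorelSpace (G' ⧸ H')]

omit [ProperSpace k] in
theorem sh_pow (h : Fl F) (e : F.Ht H' t) (S : Side μ W) {θ : POM (G' ⧸ H') K} {a : G} {b : G'}
    (hb : b ∈ F.P Finset.univ) (sh : ∀ f, Bd f → S.π a * θ.f f * S.π a⁻¹ = θ.f (f ∘ rt H' b))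
    (n : ℕ) : ∀ f, Bd f → S.π (a ^ n) * θ.f f * S.π (a ^ n)⁻¹ = θ.f (f ∘ rt H' (b ^ n)) := by
  induction n with
  | zero =>
    intro f _
    rw [pow_zero, pow_zero, inv_one, map_one, one_mul, mul_one]
    exact congrArg _ (funext fun y => congrArg f (rt_of_mem H'.one_mem y).symm)
  | succ n ih =>
    intro f hf
    have h1 := h.Ht_nrm e (pow_mem hb n)
    rw [pow_succ', ← S.conj_conj, ih f hf, sh _ (bd_comp hf (cont_rt h1).measurable), pow_succ']
    exact congrArg _ (funext fun y => congrArg f (rt_mul (h.Ht_nrm e hb) h1 y).symm)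

/-- **ERG**: `θ` lives on a cone of the target, is invariant under the unimodular group `H`, `a`
acts on it by the right translation by the regular element `b`, volumes do not grow, and the trace
per unit volume of `H` is finite near the base point. -/
theorem erg (h : Fl F) [μ'.IsMulRightInvariant] (e : F.Ht H' t) (C : Cpl μ μ' W)
    {θ : POM (G' ⧸ H') K} (hθ : θ.IsP) (cm : ∀ f, Bd f → Cm W (θ.f f)) (cov : Cov C.t.π θ)
    {H : Subgroup G} {η : Measure G} (hη : Hm H η) (hu : ∀ x ∈ H, mdl H x = 0)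
    (hM : Moore (H : Set G)) (inv : ∀ g ∈ H, ∀ f, Bd f → C.s.π g * θ.f f * C.s.π g⁻¹ = θ.f f)
    {a : G} (ha : a ∈ Subgroup.normalizer (H : Set G)) {b : G'} (hb : b ∈ F.Z)
    (reg : ∀ i, 0 < F.ℓ b i) (sh : ∀ f, Bd f → C.s.π a * θ.f f * C.s.π a⁻¹ = θ.f (f ∘ rt H' b))
    (vol : F.ρ (F.ℓ b) ≤ mdl H a) {L : Set (G' ⧸ H')} (hL : L ∈ 𝓝 ((1 : G') : G' ⧸ H'))
    (mL : MeasurableSet L) {c₀ : ℝ≥0∞} (hc₀ : c₀ ≠ ∞)
    (fin : ∀ y, Cm W y → Up C.s η (fun n => n⁻¹) y 1 → C.t.Tr (θ.P L * adjoint y) ≤ c₀)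
    {x : K →L[ℂ] K} (cx : Cm W x) (hs : ∀ g ∈ H, x * C.s.π g = C.s.π g * x)
    (xa : x * C.s.π a = C.s.π a * x) (ht : ∀ p ∈ F.P Finset.univ, x * C.t.π p = C.t.π p * x) :
    ∃ z : ℂ, x = z • (1 : K →L[ℂ] K) := by
  haveI := h.Ht_cl e
  obtain ⟨q, cq, hq⟩ := exists_ex hη C.s
  obtain ⟨c, c0, h1⟩ := cover h μ' e hL
  refine C.erg hM ⟨cx, cp_of_conj fun g => sub_eq_zero.1 ?_⟩ hs
  change ad C.t.π g x - x = 0
  have cy : Cm W (ad C.t.π g x - x) := cm_sub (C.t.conj x cx g) cx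
  have hy0 : ∀ g', x * C.s.π g' = C.s.π g' * x →
      (ad C.t.π g x - x) * C.s.π g' = C.s.π g' * (ad C.t.π g x - x) := fun g' hg => by
    rw [sub_mul, mul_sub, comm_ad C hg, hg]
  have hy := fun g' hg => hy0 g' (hs g' hg)
  have ya := hy0 a xa
  have td : ∀ s, F.n₀ * s ∈ F.Ω → ∀ ξ, Tendsto (fun n : ℕ => ad C.t.π ((b ^ n)⁻¹ * s) x ξ) atTop
      (𝓝 (ad C.t.π F.n₀⁻¹ x ξ)) := fun s hs ξ => by
    obtain ⟨p, hp, h2⟩ := dyn h hb reg hs
    refine (((C.t.cont_conj x ξ).tendsto _).comp h2).congr fun u => ?_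
    exact ap_eq ((ad_ad C.t _ _ x).symm.trans (by rw [ad_comm.2 (ht _ (hp u))])) ξ
  have hd : ∀ᵐ s ∂μ', ∀ ξ, Tendsto (fun n : ℕ => ad C.t.π ((b ^ n)⁻¹ * s) (ad C.t.π g x - x) ξ)
      atTop (𝓝 0) := by
    filter_upwards [h.ae_Ω μ' F.n₀ g, h.ae_Ω μ' F.n₀ 1] with s h2 h3 ξ
    rw [mul_one] at h3
    rw [mul_assoc] at h2
    have h4 := (td _ h2 ξ).sub (td _ h3 ξ)
    rw [sub_self] at h4
    exact h4.congr fun u => by rw [ad_sub, ad_ad, mul_assoc, sub_apply]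
  generalize ad C.t.π g x - x = y at cy hy hd ya
  have h3 := fin q cq hq.up
  have cL := cm _ (bd_ind1 mL)
  have cY : Cm W (θ.P L * adjoint q) := cm_mul cL (C.adj_cm cq)
  have ms : ∀ m, MeasurableSet ((fun g : G' => (g : G' ⧸ H')) '' compactCovering G' m) := fun m =>
    ((isCompact_compactCovering G' m).image QuotientGroup.continuous_mk).measurableSet
  have key : ∀ m, θ.P ((fun g : G' => (g : G' ⧸ H')) '' compactCovering G' m) *
      (adjoint y * adjoint q) = 0 := fun m => by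
    obtain ⟨Q, hQ, h2⟩ := h1 _ (isCompact_compactCovering G' m)
    haveI : IsFiniteMeasure (μ'.restrict Q) := isFiniteMeasure_restrict.2 hQ.measure_ne_top
    have h4 : ∀ n : ℕ, c * C.t.Tr (θ.P ((fun g : G' => (g : G' ⧸ H')) '' compactCovering G' m) *
        (adjoint y * adjoint q)) ≤
        ∫⁻ s in Q, C.t.Tr (y * C.t.π (s⁻¹ * b ^ n) * (θ.P L * adjoint q)) ∂μ' := fun n => by
      have bP := h.z_mem_P hb Finset.univ
      have mr := (cont_rt (h.Ht_nrm e (pow_mem bP n))).measurable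
      have h5 := (lo_cover C.t (ν := μ'.restrict Q) measurable_id hθ cov (ms m)
        (F := {z | rt H' (b ^ n) ((b ^ n)⁻¹ • z) ∈ L}) ((mr.comp (measurable_const_smul _)) mL)
        (by rintro _ ⟨g, hg, rfl⟩; exact h2 _ (h.dom_pow ⟨hb, fun i => (reg i).le⟩ n) g hg)).Tr
        C.t measurable_id (adjoint y * adjoint q)
      have e1 : θ.P {z | rt H' (b ^ n) ((b ^ n)⁻¹ • z) ∈ L} =
          ad C.t.π (b ^ n) (ad C.s.π (a ^ n) (θ.P L)) := by
        rw [POM.P, POM.P, ad, ad, sh_pow h e C.s bP sh n _ (bd_ind1 mL),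
          cov _ _ (bd_comp (bd_ind1 mL) mr)]
        rfl
      rw [e1] at h5
      have h6 := h5.trans (lintegral_mono fun s => shadow C hη hu hq cq cy (pow_mem ha n) hy
        (comm_pow ya n) cL (θ.star_P mL) (fun g hg => comm_of_conj (inv g hg _ (bd_ind1 mL))) _ s)
      rw [lintegral_const_mul' _ _ (eo_ne_top _), mul_comm c, mul_assoc, mdl_pow hη.cl ha,
        h.ℓ_pow hb, map_smul, smul_eq_mul] at h6
      exact (ENNReal.mul_le_mul_iff_right (eo_ne_zero _) (eo_ne_top _)).1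
        (h6.trans (mul_le_mul_left (eo_le.2 (neg_le_neg
          (mul_le_mul_of_nonneg_left vol n.cast_nonneg))) _))
    have h5 := tendsto_lintegral_filter_of_dominated_convergence (μ := μ'.restrict Q) (l := atTop)
      (F := fun (n : ℕ) s => C.t.Tr (y * C.t.π (s⁻¹ * b ^ n) * (θ.P L * adjoint q)))
      (f := fun _ => 0) (fun _ => ‖y‖ₑ ^ 2 * c₀)
      (Eventually.of_forall fun u => meas_Tr C.t C.t (measurable_inv.mul_const _) _ _)
      (Eventually.of_forall fun u => Eventually.of_forall fun s => by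
        rw [mul_assoc]
        refine (C.t.Tr_mul_le _ _).trans ?_
        rw [C.t.Tr_π_mul]
        exact mul_le_mul_right h3 _)
      (by rw [lintegral_const]; finiteness)
      ((ae_restrict_of_ae hd).mono fun s hk => (C.t.tendsto_Tr_mul (C := ‖y‖)
        (Eventually.of_forall fun u => ⟨C.t.conj y cy _, C.t.norm_conj_le _ y⟩) hk cY
        (ne_top_of_le_ne_top hc₀ h3)).congr fun u => by
          rw [mul_assoc, mul_assoc, C.t.Tr_π_mul, mul_inv_rev, inv_inv, mul_assoc])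
    rw [lintegral_zero] at h5
    exact C.tr_zero _ (cm_mul (cm _ (bd_ind1 (ms m))) (cm_mul (C.adj_cm cy) (C.adj_cm cq)))
      ((mul_eq_zero.1 (le_zero_iff.1 (ge_of_tendsto' h5 h4))).resolve_left c0)
  refine eq_zero hη (hq.lo hη hu) one_ne_zero hy ?_
  have h2 : adjoint y * adjoint q = 0 := by
    ext ξ
    have h4 := θ.tendsto_P_iUnion ms (fun i j hij => image_mono (compactCovering_subset G' hij))
      ((adjoint y * adjoint q) ξ)
    rw [← image_iUnion, iUnion_compactCovering, image_univ,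
      QuotientGroup.mk_surjective.range_eq, hθ.P_univ, oapp] at h4
    exact tendsto_nhds_unique h4 (tendsto_const_nhds.congr fun m => (ap_eq (key m) ξ).symm)
  rw [← adjoint_adjoint (q * y), adj_mul, h2, map_zero]

end Vale.Agent.P092EH
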