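import Vale.Agent.P092RE.Erg
import Vale.Agent.P092GK.Hm

/-!
P092 (helper3): exact partitions of unity along a closed unimodular subgroup, the estimate on one
shadow.
-/

set_option linter.all false

open scoped InnerProductSpace ENNReal NNReal Pointwise
open MeasureTheory Filter Topology ContinuousLinearMap Set

namespace Vale.Agent.P092EH

open Vale.Agent.P092CP Vale.Agent.P092RD Vale.Agent.P092GK
open Vale.Agent.P092RE (Up Lo Tr_flip lint_sm ad_comm ad_ad ad_adj ad_sub comm_ad comm_adj)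
open Vale.Agent.P092RS (ad)
open Vale.Agent.P092.RC (Cm Moore)

variable {G G' K : Type} [Group G] [TopologicalSpace G] [IsTopologicalGroup G]
  [LocallyCompactSpace G] [SecondCountableTopology G] [T2Space G] [MeasurableSpace G] [BorelSpace G]
  [Group G'] [TopologicalSpace G'] [IsTopologicalGroup G'] [LocallyCompactSpace G']
  [SecondCountableTopology G'] [T2Space G'] [MeasurableSpace G'] [BorelSpace G']
  [NormedAddCommGroup K] [InnerProductSpace ℂ K] [CompleteSpace K] {μ : Measure G}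
  [μ.IsHaarMeasure] {μ' : Measure G'} [μ'.IsHaarMeasure] {W : Set (K →L[ℂ] K)}
  {H : Subgroup G} {η : Measure G} {b b₁ b₂ x y T : K →L[ℂ] K}

/-- a bounded function of total mass one on every coset -/
theorem exists_br (h : Hm H η) : ∃ (ψ : G → ℝ≥0∞) (c : ℝ≥0∞), c ≠ ∞ ∧ Measurable ψ ∧
    (∀ g, ψ g ≤ c) ∧ ∀ g, ∫⁻ x, ψ (g * x) ∂η = 1 := by
  classical
  haveI := h.sfin
  haveI : Nonempty G := ⟨1⟩
  obtain ⟨V, hV, hV1⟩ := exists_compact_mem_nhds (1 : G)
  obtain ⟨d, hd⟩ := TopologicalSpace.exists_dense_seq G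
  have oO : IsOpen (interior V * interior V) := isOpen_interior.mul_left
  have o1 : (1 : G) ∈ interior V := mem_interior_iff_mem_nhds.2 hV1
  have h0 : ∀ g : G, ∃ n, ∃ x ∈ H, (d n)⁻¹ * (g * x) ∈ interior V := fun g => by
    obtain ⟨n, hn⟩ := hd.exists_mem_open (s := {y | y⁻¹ * g ∈ interior V})
      (isOpen_interior.preimage (by fun_prop)) ⟨g, by simpa using o1⟩
    exact ⟨n, 1, H.one_mem, by rwa [mul_one]⟩
  have h1 : ∀ n, IsOpen {g : G | ∃ x ∈ H, (d n)⁻¹ * (g * x) ∈ interior V} := fun n => by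
    simp only [setOf_exists, ← exists_prop]
    exact isOpen_iUnion fun x => isOpen_iUnion fun _ => isOpen_interior.preimage (by fun_prop)
  have h2 : ∀ n, Measurable fun g : G => η {x | (d n)⁻¹ * (g * x) ∈ interior V * interior V} :=
    fun n => measurable_measure_prodMk_left
      (s := {q : G × G | (d n)⁻¹ * (q.1 * q.2) ∈ interior V * interior V})
      (oO.preimage (by fun_prop)).measurableSet
  have h3 : ∀ n g, MeasurableSet {x | (d n)⁻¹ * (g * x) ∈ interior V * interior V} := fun n g =>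
    (oO.preimage (by fun_prop)).measurableSet
  have h5 : ∀ g, η (interior V) ≤
      η {x | (d (Nat.find (h0 g)))⁻¹ * (g * x) ∈ interior V * interior V} := fun g => by
    obtain ⟨x, hx, h4⟩ := Nat.find_spec (h0 g)
    rw [← (h.mp_left hx).measure_preimage (h3 _ g).nullMeasurableSet]
    exact measure_mono fun v hv => ⟨_, h4, v, hv, by simp only [mul_assoc]⟩
  have h6 : η (interior V) ≠ 0 := h.pos' (interior_mem_nhds.2 hV1)
  refine ⟨fun g => {y | (d (Nat.find (h0 g)))⁻¹ * y ∈ interior V * interior V}.indicator 1 g *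
    (η {x | (d (Nat.find (h0 g)))⁻¹ * (g * x) ∈ interior V * interior V})⁻¹, (η (interior V))⁻¹,
    ENNReal.inv_ne_top.2 h6, Measurable.find
      (f := fun n g => {y | (d n)⁻¹ * y ∈ interior V * interior V}.indicator 1 g *
        (η {x | (d n)⁻¹ * (g * x) ∈ interior V * interior V})⁻¹)
      (fun n => (measurable_one.indicator (oO.preimage (by fun_prop)).measurableSet).mul (h2 n).inv)
      (fun n => (h1 n).measurableSet) h0, fun g => ?_, fun g => ?_⟩
  · exact (mul_le_of_le_one_left' (indicator_le_self _ _ g)).trans (ENNReal.inv_le_inv.2 (h5 g))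
  obtain ⟨n, hn⟩ : ∃ n, n = Nat.find (h0 g) := ⟨_, rfl⟩
  rw [lintegral_congr_ae (g := fun x =>
    {x | (d n)⁻¹ * (g * x) ∈ interior V * interior V}.indicator 1 x *
    (η {x | (d n)⁻¹ * (g * x) ∈ interior V * interior V})⁻¹),
    lintegral_mul_const _ (measurable_one.indicator (h3 n g)),
    lintegral_indicator_one (h3 n g), ENNReal.mul_inv_cancel]
  · exact hn ▸ (h6.bot_lt.trans_le (h5 g)).ne'
  · refine (lt_of_le_of_lt (measure_mono fun x hx => ?_)
      (h.fin _ ((hV.mul hV).image (continuous_const_mul (g⁻¹ * d n))))).ne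
    exact ⟨_, mul_subset_mul interior_subset interior_subset hx, by simp only; group⟩
  · filter_upwards [h.ae] with x hx
    have h4 : Nat.find (h0 (g * x)) = n := by
      rw [hn]
      congr 1
      funext m
      refine propext ⟨fun ⟨y, hy, e⟩ => ⟨x * y, H.mul_mem hx hy, mul_assoc g x y ▸ e⟩,
        fun ⟨y, hy, e⟩ => ⟨x⁻¹ * y, H.mul_mem (H.inv_mem hx) hy, ?_⟩⟩
      rwa [mul_assoc g, mul_inv_cancel_left]
    rw [h4, ← (h.mp_left hx).measure_preimage (h3 n g).nullMeasurableSet]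
    simp only [mul_assoc]
    rfl

/-- an exact partition of unity along the group with Haar measure `η` -/
def Ex (S : Side μ W) (η : Measure G) (b : K →L[ℂ] K) : Prop :=
  ∀ ξ, ∫⁻ n, ‖b (S.π n⁻¹ ξ)‖ₑ ^ 2 ∂η = ‖ξ‖ₑ ^ 2

theorem exists_ex (h : Hm H η) (S : Side μ W) : ∃ b, Cm W b ∧ Ex S η b := by
  haveI := h.sfin
  obtain ⟨ψ, c, hc, mψ, h1, h2⟩ := exists_br h
  have bχ : Bd fun y : G => ((√(ψ y⁻¹).toReal : ℝ) : ℂ) := bd_real
    (mψ.comp measurable_inv).ennreal_toReal.sqrt (C := √c.toReal) fun y => by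
      rw [abs_of_nonneg (Real.sqrt_nonneg _)]
      exact Real.sqrt_le_sqrt (ENNReal.toReal_mono hc (h1 _))
  refine ⟨_, S.cm_m bχ, fun ξ => ?_⟩
  rw [lint_sm S measurable_inv bχ, S.enorm_U]
  refine lintegral_congr fun y => ?_
  rw [lintegral_congr (g := fun n => ψ (y⁻¹ * n)) fun n => ?_, h2, one_mul]
  rw [← ofReal_norm_eq_enorm, Complex.norm_real, Real.norm_eq_abs,
    abs_of_nonneg (Real.sqrt_nonneg _), ← ENNReal.ofReal_pow (Real.sqrt_nonneg _),
    Real.sq_sqrt ENNReal.toReal_nonneg, ENNReal.ofReal_toReal (ne_top_of_le_ne_top hc (h1 _)),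
    mul_inv_rev, inv_inv]

theorem Ex.up {S : Side μ W} (hb : Ex S η b) : Up S η (fun n => n⁻¹) b 1 := fun ξ => by
  rw [one_mul, hb]

theorem Ex.lo {S : Side μ W} (hb : Ex S η b) (h : Hm H η) (hu : ∀ x ∈ H, mdl H x = 0) :
    Lo S η id b 1 1 := fun ξ => by
  rw [one_mul, oapp, ← hb ξ]
  conv_rhs => rw [← h.inv hu]
  exact (lintegral_map (S.meas_π b ξ) measurable_inv).ge

theorem flip (C : Cpl μ μ' W) (h : Hm H η) (hT : Cm W T) (h₁ : Cm W b₁) (h₂ : Cm W b₂)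
    (e : ∀ n ∈ H, T * C.s.π n = C.s.π n * T) {c c' : ℝ≥0∞} (lo : Lo C.s η id b₂ c' 1)
    (up : Up C.s η (fun n => n⁻¹) b₁ c) :
    c' * C.t.Tr (T * adjoint b₁) ≤ c * C.t.Tr (adjoint T * adjoint b₂) := by
  haveI := h.sfin
  have h1 := lo.Tr C.t measurable_id (T * adjoint b₁)
  rw [one_mul] at h1
  refine h1.trans (le_trans (le_of_eq ?_) (up.Tr C.t measurable_inv _))
  exact lintegral_congr_ae (h.ae.mono fun n hn => Tr_flip C hT h₁ h₂ (e n hn))

theorem eq_zero {S : Side μ W} (h : Hm H η) {c : ℝ≥0∞} (lo : Lo S η id b c 1) (hc : c ≠ 0)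
    (e : ∀ n ∈ H, T * S.π n = S.π n * T) (h0 : b * T = 0) : T = 0 := by
  ext ξ
  have h1 := lo (T ξ)
  rw [lintegral_congr_ae (g := fun _ => 0) (h.ae.mono fun n hn => by
    rw [id, ← mul_ap (S.π n), ← e n hn, mul_ap, ← mul_ap b, h0]
    simp)] at h1
  simpa [hc] using h1

theorem up_conj (C : Cpl μ μ' W) (h : Hm H η) (hb : Up C.s η (fun n => n⁻¹) b 1) {a : G}
    (ha : a ∈ Subgroup.normalizer (H : Set G)) (g : G') :
    Up C.s η (fun n => n⁻¹) (ad C.s.π a⁻¹ (ad C.t.π g b)) (eo (-mdl H a)) := fun ξ => by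
  have e : ∀ n, ‖ad C.s.π a⁻¹ (ad C.t.π g b) (C.s.π n⁻¹ ξ)‖ₑ ^ 2 =
      ‖b (C.s.π (a⁻¹⁻¹ * n * a⁻¹)⁻¹ (C.t.π g⁻¹ (C.s.π a ξ)))‖ₑ ^ 2 := fun n => by
    simp only [ad, mapp, C.s.enorm_π, C.t.enorm_π, inv_inv]
    rw [← mapp (C.s.π (a * n * a⁻¹)⁻¹), C.comm, mapp, pi_ap, pi_ap]
    congr 6
    group
  rw [lintegral_congr e, h.lint_conj (Subgroup.inv_mem _ ha)
    fun n => ‖b (C.s.π n⁻¹ (C.t.π g⁻¹ (C.s.π a ξ)))‖ₑ ^ 2, mdl_inv h.cl ha]
  refine mul_le_mul_right ((hb _).trans_eq ?_) _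
  rw [C.t.enorm_π, C.s.enorm_π, one_mul]

/-- the renormalised estimate on one shadow: `P' = β_c σ_a P` -/
theorem shadow (C : Cpl μ μ' W) (h : Hm H η) (hu : ∀ x ∈ H, mdl H x = 0) (hb : Ex C.s η b)
    (cb : Cm W b) (cy : Cm W y) {a : G} (ha : a ∈ Subgroup.normalizer (H : Set G))
    (hy : ∀ g ∈ H, y * C.s.π g = C.s.π g * y) (ya : y * C.s.π a = C.s.π a * y) {P : K →L[ℂ] K}
    (cP : Cm W P) (sP : adjoint P = P) (hP : ∀ g ∈ H, P * C.s.π g = C.s.π g * P) (c k : G') :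
    C.t.Tr (ad C.t.π c (ad C.s.π a P) * C.t.π k * (adjoint y * adjoint b)) ≤
      eo (-mdl H a) * C.t.Tr (y * C.t.π (k⁻¹ * c) * (P * adjoint b)) := by
  obtain ⟨g, rfl⟩ : ∃ g, k = c * g := ⟨_, (mul_inv_cancel_left _ k).symm⟩
  have hy' : ∀ g ∈ H, adjoint y * C.s.π g = C.s.π g * adjoint y := fun g hg =>
    comm_adj C.s (hy _ (H.inv_mem hg))
  have c1 : Cm W (P * ad C.t.π g (adjoint y)) := cm_mul cP (C.t.conj _ (C.adj_cm cy) g)
  have c2 : Cm W (ad C.s.π a⁻¹ (ad C.t.π g b)) := C.s.conj _ (C.t.conj _ cb g) _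
  have h1 := flip C h c1 c2 cb (fun p hp => by
    rw [mul_assoc, comm_ad C (hy' _ hp), ← mul_assoc, hP _ hp, mul_assoc])
    (hb.lo h hu) (up_conj C h hb.up ha g)
  have e2 : ad C.t.π c (ad C.s.π a P) * C.t.π (c * g) * (adjoint y * adjoint b) =
      C.t.π c * (C.s.π a * (P * ad C.t.π g (adjoint y) *
        adjoint (ad C.s.π a⁻¹ (ad C.t.π g b)) * C.s.π a⁻¹ * C.t.π g)) := by
    have a2 : ∀ X, C.s.π a⁻¹ * (C.t.π g * X) = C.t.π g * (C.s.π a⁻¹ * X) :=
      fun X => by rw [← mul_assoc, C.comm, mul_assoc]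
    have a3 : ∀ X, C.s.π a⁻¹ * (adjoint y * X) = adjoint y * (C.s.π a⁻¹ * X) :=
      fun X => by rw [← mul_assoc, ← comm_adj C.s (by rwa [inv_inv]), mul_assoc]
    have a4 : ∀ (g : G') X, C.t.π g⁻¹ * (C.t.π g * X) = X :=
      fun g X => by rw [← mul_assoc, pi_inv_mul, one_mul]
    have a5 : ∀ X, C.s.π a * (C.s.π a⁻¹ * X) = X :=
      fun X => by rw [← mul_assoc, pi_mul_inv, one_mul]
    rw [ad_adj, ad_adj]
    simp only [ad, inv_inv, map_mul, mul_assoc, a4, a5, pi_inv_mul, mul_one]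
    rw [a2, a3, a2, a4]
  have e3 : adjoint (P * ad C.t.π g (adjoint y)) * adjoint b =
      C.t.π g * (y * C.t.π ((c * g)⁻¹ * c) * (P * adjoint b)) := by
    rw [adj_mul, ad_adj, adjoint_adjoint, sP, mul_inv_rev, inv_mul_cancel_right]
    simp only [ad, mul_assoc]
  rw [one_mul, e3, C.t.Tr_π_mul] at h1
  rwa [e2, C.t.Tr_π_mul, C.Tr_s_mul, C.t.Tr_mul_π, C.Tr_mul_s (cm_mul c1 (C.adj_cm c2))]

end Vale.Agent.P092EH
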