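import Vale.Agent.P092EH.Spd
import Vale.Agent.P092HR.Defs
import Vale.Agent.P092BL.Erg

/-!
P092 (helper3): the magic relation for the two sides of a coupling in higher rank.
-/

set_option linter.all false

open scoped InnerProductSpace ENNReal NNReal Vale.Agent.P092HR
open MeasureTheory Filter Topology ContinuousLinearMap Set

namespace Vale.Agent.P092EH

open Vale.Agent.P092CP Vale.Agent.P092RD Vale.Agent.P092GK
open Vale.Agent.P092RD.POM (ex)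
open Vale.Agent.P092.RC (Cm Moore)
open Vale.Agent.P092HR (Gr Sd Aa NN YY ZZ)

variable {k : Type} [NontriviallyNormedField k] [ProperSpace k] {G K : Type} [Group G]
  [TopologicalSpace G] [IsTopologicalGroup G] [LocallyCompactSpace G] [SecondCountableTopology G]
  [T2Space G] [MeasurableSpace G] [BorelSpace G] [NormedAddCommGroup K] [InnerProductSpace ℂ K]
  [CompleteSpace K] {μ : Measure G} [μ.IsHaarMeasure] {W : Set (K →L[ℂ] K)} {r : ℕ}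
  {X : Type} [NormedAddCommGroup X] [NormedSpace ℝ X] {F : FlD k G r} {C : Cpl μ μ W}
  {L L₂ : Aa r →ₗ[ℝ] Aa r} {E E₂ : POM (YY F) K} {θ₀ θ₂₀ : POM (ZZ F) K} {H : Subgroup G}
  {t : Aa r →ₗ[ℝ] X}

theorem hmg_of (g : Gr F) : P092.H15.HMG G := by
  obtain ⟨s, N, τ, w, hp⟩ := g.pan
  exact P092GH.hmg g.fl hp (by rw [g.gen]; exact dense_univ)

theorem moore_Up (g : Gr F) {S : Set G} (hS : (F.Up : Set G) ⊆ S) : Moore S := by
  obtain ⟨s, N, τ, w, hp⟩ := g.pan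
  intro E _ _ _ u h1 h2 ξ h3
  exact P092BL.moore_U (hmg_of g) g.fl hp ⟨⟨0, by have := g.two; omega⟩, Finset.mem_univ _⟩ E u h1
    h2 ξ fun x hx => h3 x (hS (g.fl.U_univ.1 hx))

theorem moore_Ht (g : Gr F) (e : F.Ht H t) : Moore (H : Set G) :=
  moore_Up g fun _ => g.fl.up_Ht e

/-- one side gives a cone calculus -/
theorem th_of (g : Gr F) {θ : POM (G ⧸ H) K} (a : Sd F C L E θ₀ H t θ) {L' : Aa r →ₗ[ℝ] X}
    (e : ∀ x, L' x = t (L x)) : Th C F F t L' θ where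
  isP := a.tx.isP
  cm := a.tx.inv.cm
  cov := a.tx.inv.cov
  sh p hp := by
    obtain ⟨z, h1, u, h2, rfl⟩ := g.fl.P_univ.1 hp
    obtain ⟨q, h3, h4⟩ := a.sp.lat z h1
    rw [← g.fl.ℓ_up (g := z) h2] at h4
    exact ⟨q, g.fl.z_mem_P h3 _, by rw [e, h4], a.tx.mv _ hp q (g.fl.z_mem_P h3 _) (by rw [h4])⟩

theorem fn_of (g : Gr F) (e : F.Ht H t) {θ : POM (G ⧸ H) K} (a : P092HR.Fn C H θ) {η : Measure G}
    (hη : Hm H η) : Fn C η θ := by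
  haveI := g.fl.Ht_cl e
  obtain ⟨S, h1, h2⟩ := exists_compact_mem_nhds ((1 : G) : G ⧸ H)
  exact ⟨S, h2, h1.isClosed.measurableSet, a η hη S h1⟩

theorem pair_of (g : Gr F) {θ : POM (G ⧸ H) K} (a : Sd F C L E θ₀ H t θ) :
    ∃ p ∈ F.P Finset.univ, ∃ q ∈ F.Z, (∀ i, 0 < F.ℓ q i) ∧ F.ℓ q = L (F.ℓ p) := by
  obtain ⟨p, h1, -, h2⟩ := a.reg
  obtain ⟨q, h3, h4⟩ := a.sp.lat p h1
  exact ⟨p, g.fl.z_mem_P h1 _, q, h3, h4 ▸ h2, h4⟩

/-- ergodicity of `P × P` -/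
theorem er_of (g : Gr F) {θ : POM (G ⧸ H) K} (a : Sd F C L E θ₀ H t θ) : Er C F F := by
  haveI := C.s.right
  obtain ⟨η, hη⟩ := exists_hm (g.fl.Ht_cl a.cs.tgt)
  obtain ⟨p, h1, q, h2, h3, h4⟩ := pair_of g a
  exact (th_of g a (L' := t ∘ₗ L) fun _ => rfl).er g.fl g.fl a.cs.src a.cs.tgt a.cs.rho
    (fun _ => id) (moore_Ht g a.cs.tgt) hη (fn_of g a.cs.tgt a.fin hη) h1 h2 h3 (congrArg t h4)
    (by rw [h4, a.rho])

/-- **MAGIC0** on the `ρ`-cone -/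
theorem magic_r (g : Gr F) {θ θ₂ : POM (G ⧸ H) K} (a : Sd F C L E θ₀ H F.ρ θ)
    (b : Sd F C.swap L₂ E₂ θ₂₀ H F.ρ θ₂) (s : ℝ) :
    ∃ c : ℂ, θ.f (ex s (lz F H F.ρ)) = c • θ₂.f (ex s (lz F H F.ρ)) :=
  haveI := C.s.right
  magic (u := .id ℝ ℝ) (u' := .id ℝ ℝ) (th_of g a fun x => (a.rho x).symm)
    (th_of g b fun x => (b.rho x).symm) g.fl g.fl a.cs.tgt a.cs.tgt (er_of g a)
    (fun p _ => (g.fl.ρ_ι μ _).symm) (fun p _ => (g.fl.ρ_ι μ _).symm) s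

/-- **MAGIC0** on the full cone, and the relation between the two speeds -/
theorem magic_td (g : Gr F) {θ θ₂ : POM (ZZ F) K} (a : Sd F C L E θ₀ (NN F) .id θ)
    (b : Sd F C.swap L₂ E₂ θ₂₀ (NN F) .id θ₂) (τ : Aa r →L[ℝ] ℝ) :
    (∀ p ∈ F.P Finset.univ, τ (L (L₂ (F.ℓ p) ∘ F.ι)) = τ (F.ℓ p ∘ F.ι)) ∧ ∀ s, ∃ c : ℂ,
      θ.f (ex s (τ ∘ lz F (NN F) .id)) = c • θ₂.f (ex s (tLi F L τ ∘ lz F (NN F) .id)) := by
  haveI := C.s.right
  obtain ⟨η, hη⟩ := exists_hm (g.fl.Ht_cl a.cs.tgt)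
  obtain ⟨p, h1, q, h2, h3, h4⟩ := pair_of g b
  exact magic_full (th_of g a fun _ => rfl) (th_of g b fun _ => rfl) g.fl g.fl a.cs.tgt a.cs.tgt
    (moore_Ht g a.cs.tgt) hη (fn_of g a.cs.tgt b.fin hη) h1 h2 h3 h4 (by rw [h4, b.rho]) τ

end Vale.Agent.P092EH
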