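import Vale.Agent.P092EH.Erg

/-!
P092 (helper3): the magic relation at the base points of two cones in higher rank.
-/

set_option linter.all false

open scoped InnerProductSpace ENNReal NNReal Pointwise
open MeasureTheory Filter Topology ContinuousLinearMap Set

namespace Vale.Agent.P092EH

open Vale.Agent.P092CP Vale.Agent.P092RD Vale.Agent.P092GK
open Vale.Agent.P092RD.POM (ex)
open Vale.Agent.P092RE (Up)
open Vale.Agent.P092.RC (Cm Moore)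

variable {G G' K : Type} [Group G] [TopologicalSpace G] [IsTopologicalGroup G]
  [LocallyCompactSpace G] [SecondCountableTopology G] [T2Space G] [MeasurableSpace G] [BorelSpace G]
  [Group G'] [TopologicalSpace G'] [IsTopologicalGroup G'] [LocallyCompactSpace G']
  [SecondCountableTopology G'] [T2Space G'] [MeasurableSpace G'] [BorelSpace G']
  [NormedAddCommGroup K] [InnerProductSpace ℂ K] [CompleteSpace K] {μ : Measure G}
  [μ.IsHaarMeasure] {μ' : Measure G'} [μ'.IsHaarMeasure] {W : Set (K →L[ℂ] K)}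
  {k k' : Type} [NontriviallyNormedField k] [ProperSpace k] [NontriviallyNormedField k']
  [ProperSpace k'] {r r' : ℕ} {F : FlD k G r} {F' : FlD k' G' r'}
  {X X' : Type} [NormedAddCommGroup X] [NormedSpace ℝ X] [NormedAddCommGroup X'] [NormedSpace ℝ X']
  {H : Subgroup G} {H' : Subgroup G'} {t : (Fin r → ℝ) →ₗ[ℝ] X} {t' : (Fin r' → ℝ) →ₗ[ℝ] X'}

/-- the points of the cone which are opposite to the base point -/
def Uz (F : FlD k G r) (H : Subgroup G) : Set (G ⧸ H) := {ζ | F.n₀ * ζ.out ∈ F.Ω}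

/-- the pairing with the base point -/
noncomputable def lz (F : FlD k G r) (H : Subgroup G) (t : (Fin r → ℝ) →ₗ[ℝ] X) : G ⧸ H → X :=
  (Uz F H).indicator fun ζ => t (F.ℓ (F.n₀ * ζ.out))

section geo

variable (h : Fl F)
include h

theorem mem_Uz (e : H ≤ F.P Finset.univ) (g : G) : (g : G ⧸ H) ∈ Uz F H ↔ F.n₀ * g ∈ F.Ω := by
  obtain ⟨x, hx, e1⟩ := out_mem H g
  rw [Uz, mem_setOf_eq, e1, ← mul_assoc, h.Ω_mul_P (e hx)]

theorem lz_mk (e : F.Ht H t) (g : G) (hg : F.n₀ * g ∈ F.Ω) :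
    lz F H t g = t (F.ℓ (F.n₀ * g)) := by
  obtain ⟨x, hx, e1⟩ := out_mem H g
  rw [lz, indicator_of_mem ((mem_Uz h e.le g).2 hg), e1, ← mul_assoc, h.ℓ_P hg (e.le hx), map_add,
    ((e x).1 hx).2, add_zero]

theorem isOpen_Uz (e : H ≤ F.P Finset.univ) : IsOpen (Uz F H) := by
  rw [← QuotientGroup.isOpenQuotientMap_mk.isQuotientMap.isOpen_preimage]
  convert h.isOpen_Ω.preimage (continuous_const_mul F.n₀) using 1
  exact Set.ext (mem_Uz h e)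

theorem contOn_lz (e : F.Ht H t) : ContinuousOn (lz F H t) (Uz F H) := fun ζ hζ => by
  induction ζ using QuotientGroup.induction_on with
  | H g =>
    have h1 := (h.isOpen_Ω.preimage (continuous_const_mul F.n₀)).mem_nhds
      ((mem_Uz h e.le g).1 hζ)
    refine (QuotientGroup.isOpenQuotientMap_mk.continuousAt_comp_iff.1 ?_).continuousWithinAt
    refine (t.continuous_of_finiteDimensional.continuousAt.comp ((h.contOn_ℓ.comp
      (continuous_const_mul F.n₀).continuousOn fun _ hx => hx).continuousAt h1)).congr ?_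
    filter_upwards [h1] with x hx
    exact (lz_mk h e x hx).symm

theorem lz_rt (e : F.Ht H t) {p : G} (hp : p ∈ F.P Finset.univ) {ζ : G ⧸ H} (hζ : ζ ∈ Uz F H) :
    rt H p ζ ∈ Uz F H ∧ lz F H t (rt H p ζ) = lz F H t ζ + t (F.ℓ p) := by
  induction ζ using QuotientGroup.induction_on with
  | H g =>
    have h1 := (mem_Uz h e.le g).1 hζ
    have h2 : F.n₀ * (g * p) ∈ F.Ω := by rwa [← mul_assoc, h.Ω_mul_P hp]
    rw [rt_mk (h.Ht_nrm e hp), mem_Uz h e.le, lz_mk h e _ h1, lz_mk h e _ h2, ← mul_assoc,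
      h.ℓ_P h1 hp, map_add]
    exact ⟨mul_assoc F.n₀ g p ▸ h2, rfl⟩

theorem lz_smul (e : F.Ht H t) {p : G} (hp : p ∈ F.P Finset.univ) {ζ : G ⧸ H} (hζ : ζ ∈ Uz F H) :
    p⁻¹ • ζ ∈ Uz F H ∧ lz F H t (p⁻¹ • ζ) = lz F H t ζ + t (F.ℓ p ∘ F.ι) := by
  induction ζ using QuotientGroup.induction_on with
  | H g =>
    have h1 := (mem_Uz h e.le g).1 hζ
    have h2 := (h.pair_Ω (x := g) hp (one_mem _)).2 h1
    have h3 := h.pair_ℓ hp (one_mem _) h1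
    rw [mul_one] at h2 h3
    rw [mk_smul, mem_Uz h e.le, lz_mk h e _ h1, lz_mk h e _ h2, h3, h.ℓ_one, add_zero, map_add,
      add_comm]
    exact ⟨h2, rfl⟩

variable [MeasurableSpace (G ⧸ H)] [BorelSpace (G ⧸ H)]

theorem meas_lz (e : F.Ht H t) [MeasurableSpace X] [BorelSpace X] : Measurable (lz F H t) := by
  classical
  have h1 := (contOn_lz h e).measurable_piecewise (continuousOn_const (c := (0 : X)))
    (isOpen_Uz h e.le).measurableSet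
  convert h1 using 1
  funext ζ
  by_cases hζ : ζ ∈ Uz F H
  · rw [piecewise_eq_of_mem _ _ _ hζ]
  · rw [piecewise_eq_of_notMem _ _ _ hζ, lz, indicator_of_notMem hζ]

theorem meas_ulz (e : F.Ht H t) (u : X →L[ℝ] ℝ) : Measurable (u ∘ lz F H t) := by
  borelize X
  exact u.continuous.measurable.comp (meas_lz h e)

theorem P_Uz (e : H ≤ F.P Finset.univ) (S : Side μ W) {θ : POM (G ⧸ H) K} (cov : Cov S.π θ) :
    θ.P (Uz F H)ᶜ = 0 :=
  null S cov (isOpen_Uz h e).measurableSet.compl fun ζ => by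
    induction ζ using QuotientGroup.induction_on with
    | H g =>
      refine measure_mono_null (fun s hs => ?_) (ae_iff.1 (h.ae_Ω_inv μ F.n₀ g))
      exact fun h1 => hs ((mem_Uz h e _).2 (mul_assoc F.n₀ s⁻¹ g ▸ h1))

theorem full_Uz (e : H ≤ F.P Finset.univ) (S : Side μ W) {θ : POM (G ⧸ H) K} (hθ : θ.IsP)
    (cov : Cov S.π θ) : θ.P (Uz F H) = 1 := by
  have h1 := hθ.P_compl (isOpen_Uz h e).measurableSet
  rw [P_Uz h e S cov] at h1
  exact (sub_eq_zero.1 h1.symm).symm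

end geo

variable [MeasurableSpace (G ⧸ H)] [BorelSpace (G ⧸ H)] [MeasurableSpace (G' ⧸ H')]
  [BorelSpace (G' ⧸ H')]

/-- **A cone calculus**: the minimal parabolic subgroup of the source acts by right translations,
with the speed `L`. -/
structure Th (C : Cpl μ μ' W) (F : FlD k G r) (F' : FlD k' G' r') (t' : (Fin r' → ℝ) →ₗ[ℝ] X')
    (L : (Fin r → ℝ) →ₗ[ℝ] X') (θ : POM (G' ⧸ H') K) : Prop where
  isP : θ.IsP
  cm : ∀ f, Bd f → Cm W (θ.f f)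
  cov : Cov C.t.π θ
  sh : ∀ p ∈ F.P Finset.univ, ∃ q ∈ F'.P Finset.univ, t' (F'.ℓ q) = L (F.ℓ p) ∧
    ∀ f, Bd f → C.s.π p * θ.f f * C.s.π p⁻¹ = θ.f (f ∘ rt H' q)

/-- the trace per unit volume of `η` is finite near the base point -/
def Fn (C : Cpl μ μ' W) (η : Measure G) (θ : POM (G' ⧸ H') K) : Prop :=
  ∃ L ∈ 𝓝 ((1 : G') : G' ⧸ H'), MeasurableSet L ∧ ∃ c : ℝ≥0∞, c ≠ ∞ ∧
    ∀ y, Cm W y → Up C.s η (fun n => n⁻¹) y 1 → C.t.Tr (θ.P L * adjoint y) ≤ c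

/-- ergodicity of `P × P'` -/
def Er (C : Cpl μ μ' W) (F : FlD k G r) (F' : FlD k' G' r') : Prop :=
  ∀ x, Cm W x → (∀ p ∈ F.P Finset.univ, x * C.s.π p = C.s.π p * x) →
    (∀ p ∈ F'.P Finset.univ, x * C.t.π p = C.t.π p * x) → ∃ c : ℂ, x = c • (1 : K →L[ℂ] K)

variable {C : Cpl μ μ' W} {L : (Fin r → ℝ) →ₗ[ℝ] X'} {L' : (Fin r' → ℝ) →ₗ[ℝ] X}
  {θ : POM (G' ⧸ H') K} {θ' : POM (G ⧸ H) K} {η : Measure G}

omit [MeasurableSpace (G ⧸ H)] [BorelSpace (G ⧸ H)] in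
theorem Th.sh' (T : Th C F F' t' L θ) (h' : Fl F') (e' : F'.Ht H' t') {p : G} {q : G'}
    (hp : p ∈ F.P Finset.univ) (hq : q ∈ F'.P Finset.univ) (e : t' (F'.ℓ q) = L (F.ℓ p))
    (f : G' ⧸ H' → ℂ) (hf : Bd f) : C.s.π p * θ.f f * C.s.π p⁻¹ = θ.f (f ∘ rt H' q) := by
  obtain ⟨q', h1, h2, h3⟩ := T.sh p hp
  rw [h3 f hf, h'.rt_congr e' h1 hq (h2.trans e.symm)]

omit [MeasurableSpace (G ⧸ H)] [BorelSpace (G ⧸ H)] in
theorem Th.inv (T : Th C F F' t' L θ) (h' : Fl F') (e' : F'.Ht H' t') {p : G}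
    (hp : p ∈ F.P Finset.univ) (e : L (F.ℓ p) = 0) (f : G' ⧸ H' → ℂ) (hf : Bd f) :
    C.s.π p * θ.f f * C.s.π p⁻¹ = θ.f f :=
  (T.sh' h' e' hp (one_mem _) (by rw [h'.ℓ_one, map_zero, e]) f hf).trans
    (congrArg _ (funext fun y => congrArg f (rt_of_mem H'.one_mem y)))

omit [MeasurableSpace (G ⧸ H)] [BorelSpace (G ⧸ H)] in
/-- **ERG** for a cone calculus -/
theorem Th.er (T : Th C F F' t' L θ) (h : Fl F) (h' : Fl F') [μ'.IsMulRightInvariant]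
    (e : F.Ht H t) (e' : F'.Ht H' t') (hρ : ∀ x, t x = 0 → F.ρ x = 0)
    (hL : ∀ x, t x = 0 → L x = 0) (hM : Moore (H : Set G)) (hη : Hm H η) (fin : Fn C η θ) {a : G}
    (ha : a ∈ F.P Finset.univ) {b : G'} (hb : b ∈ F'.Z) (reg : ∀ i, 0 < F'.ℓ b i)
    (ab : t' (F'.ℓ b) = L (F.ℓ a)) (vol : F'.ρ (F'.ℓ b) ≤ F.ρ (F.ℓ a)) : Er C F F' := by
  obtain ⟨S, h1, h2, c, h3, h4⟩ := fin
  exact fun x cx hs ht => erg h' e' C T.isP T.cm T.cov hη (fun x hx => h.uni_Ht e hρ hx) hM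
    (fun g hg => T.inv h' e' (e.le hg) (hL _ ((e g).1 hg).2)) (h.Ht_nrm e ha) hb reg
    (T.sh' h' e' ha (h'.z_mem_P hb _) ab) (by rwa [h.mdl_Ht e ha]) h1 h2 h3 h4 cx
    (fun g hg => hs g (e.le hg)) (hs a ha) ht

theorem Th.shift (T : Th C F F' t' L θ) (h : Fl F) (h' : Fl F') (e : F.Ht H t) (e' : F'.Ht H' t')
    {u : X →L[ℝ] ℝ} {u' : X' →L[ℝ] ℝ} {p : G} (hp : p ∈ F.P Finset.univ)
    (c1 : u' (L (F.ℓ p)) = u (t (F.ℓ p ∘ F.ι))) :
    Shift C.s.π θ (u' ∘ lz F' H' t') (Uz F' H') (u ∘ lz F H t) (Uz F H) p := by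
  obtain ⟨q, h1, h2, h3⟩ := T.sh p hp
  refine ⟨u' (L (F.ℓ p)), _, (cont_rt (h'.Ht_nrm e' h1)).measurable, h3, fun ζ hζ => ?_, fun ζ hζ => ?_⟩
  · rw [Function.comp_apply, (lz_rt h' e' h1 hζ).2, map_add, h2]; rfl
  · rw [Function.comp_apply, (lz_smul h e hp hζ).2, map_add, c1]; rfl

/-- **The magic relation** -/
theorem magic (T : Th C F F' t' L θ) (T' : Th C.swap F' F t L' θ') (h : Fl F) (h' : Fl F')
    (e : F.Ht H t) (e' : F'.Ht H' t') (er : Er C F F') {u : X →L[ℝ] ℝ} {u' : X' →L[ℝ] ℝ}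
    (c1 : ∀ p ∈ F.P Finset.univ, u' (L (F.ℓ p)) = u (t (F.ℓ p ∘ F.ι)))
    (c2 : ∀ p ∈ F'.P Finset.univ, u (L' (F'.ℓ p)) = u' (t' (F'.ℓ p ∘ F'.ι))) (s : ℝ) :
    ∃ c : ℂ, θ.f (ex s (u' ∘ lz F' H' t')) = c • θ'.f (ex s (u ∘ lz F H t)) :=
  magic0 C T.isP T'.isP T.cm T'.cm T.cov T'.cov (meas_ulz h' e' u') (meas_ulz h e u)
    (isOpen_Uz h' e'.le).measurableSet (isOpen_Uz h e.le).measurableSet
    (full_Uz h' e'.le C.t T.isP T.cov) (full_Uz h e.le C.s T'.isP T'.cov)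
    (fun p hp => T.shift h h' e e' hp (c1 p hp)) (fun p hp => T'.shift h' h e' e hp (c2 p hp)) er s

/-- **The magic relation on the `ρ`-cones** -/
theorem magic_ρ [μ.IsMulRightInvariant] [μ'.IsMulRightInvariant] (T : Th C F F' F'.ρ F.ρ θ)
    (T' : Th C.swap F' F F.ρ F'.ρ θ') (h : Fl F) (h' : Fl F') (e : F.Ht H F.ρ)
    (e' : F'.Ht H' F'.ρ) (hM : Moore (H : Set G)) (hη : Hm H η) (fin : Fn C η θ) {a : G}
    (ha : a ∈ F.P Finset.univ) {b : G'} (hb : b ∈ F'.Z) (reg : ∀ i, 0 < F'.ℓ b i)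
    (ab : F'.ρ (F'.ℓ b) = F.ρ (F.ℓ a)) (s : ℝ) :
    ∃ c : ℂ, θ.f (ex s (lz F' H' F'.ρ)) = c • θ'.f (ex s (lz F H F.ρ)) :=
  magic (u := .id ℝ ℝ) (u' := .id ℝ ℝ) T T' h h' e e'
    (T.er h h' e e' (fun _ => id) (fun _ => id) hM hη fin ha hb reg ab ab.le)
    (fun p _ => (h.ρ_ι μ _).symm) (fun p _ => (h'.ρ_ι μ' _).symm) s

end Vale.Agent.P092EH
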