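import Vale.Agent.P092EH.Mag

/-!
P092 (helper3): the speeds of the two sides are inverse to each other; the magic relation on the
full cones.
-/

set_option linter.all false

open scoped InnerProductSpace ENNReal NNReal Pointwise
open MeasureTheory Filter Topology ContinuousLinearMap Set

namespace Vale.Agent.P092EH

open Vale.Agent.P092CP Vale.Agent.P092RD Vale.Agent.P092GK
open Vale.Agent.P092RD.POM (ex bd_ex)
open Vale.Agent.P092RE (Up)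
open Vale.Agent.P092.RC (Cm Moore)

variable {G G' K : Type} [Group G] [TopologicalSpace G] [IsTopologicalGroup G]
  [LocallyCompactSpace G] [SecondCountableTopology G] [T2Space G] [MeasurableSpace G] [BorelSpace G]
  [Group G'] [TopologicalSpace G'] [IsTopologicalGroup G'] [LocallyCompactSpace G']
  [SecondCountableTopology G'] [T2Space G'] [MeasurableSpace G'] [BorelSpace G']
  [NormedAddCommGroup K] [InnerProductSpace ℂ K] [CompleteSpace K] {μ : Measure G}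
  [μ.IsHaarMeasure] {μ' : Measure G'} [μ'.IsHaarMeasure] {W : Set (K →L[ℂ] K)}
  {k k' : Type} [NontriviallyNormedField k] [ProperSpace k] [NontriviallyNormedField k']
  [ProperSpace k'] {r r' : ℕ} {F : FlD k G r} {F' : FlD k' G' r'}
  {X X' : Type} [NormedAddCommGroup X] [NormedSpace ℝ X] [NormedAddCommGroup X'] [NormedSpace ℝ X']
  {H : Subgroup G} {H' : Subgroup G'} {t : (Fin r → ℝ) →ₗ[ℝ] X} {t' : (Fin r' → ℝ) →ₗ[ℝ] X'}
  [MeasurableSpace (G ⧸ H)] [BorelSpace (G ⧸ H)] [MeasurableSpace (G' ⧸ H')]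
  [BorelSpace (G' ⧸ H')] {C : Cpl μ μ' W} {L : (Fin r → ℝ) →ₗ[ℝ] X'}
  {L' : (Fin r' → ℝ) →ₗ[ℝ] X} {θ : POM (G' ⧸ H') K} {θ' : POM (G ⧸ H) K} {η : Measure G}

theorem exp_pi {x : ℝ} (hx : x ≠ 0) : Complex.exp ((Real.pi / x : ℝ) * x * Complex.I) ≠ 1 := by
  rw [← Complex.ofReal_mul, div_mul_cancel₀ _ hx, Complex.exp_pi_mul_I]
  norm_num

theorem Er.swap (h : Er C F F') : Er C.swap F' F := fun x cx h1 h2 => h x cx h2 h1

omit [MeasurableSpace (G ⧸ H)] [BorelSpace (G ⧸ H)] in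
theorem Th.ss (T : Th C F F' t' L θ) : Th C.swap.swap F F' t' L θ := ⟨T.isP, T.cm, T.cov, T.sh⟩

/-- the quotient of the two exponentials is an eigenvector of the parabolic subgroup -/
theorem eig (T : Th C F F' t' L θ) (hθ' : θ'.IsP) (cov' : Cov C.s.π θ') (h : Fl F) (h' : Fl F')
    (e : F.Ht H t) (e' : F'.Ht H' t') (u : X →L[ℝ] ℝ) (u' : X' →L[ℝ] ℝ) {p : G}
    (hp : p ∈ F.P Finset.univ) (s : ℝ) :
    C.s.π p * θ.f (ex s (u' ∘ lz F' H' t')) * C.s.π p⁻¹ =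
      Complex.exp (s * u' (L (F.ℓ p)) * Complex.I) • θ.f (ex s (u' ∘ lz F' H' t')) ∧
    C.s.π p * θ'.f (ex (-s) (u ∘ lz F H t)) * C.s.π p⁻¹ =
      Complex.exp ((-s : ℝ) * u (t (F.ℓ p ∘ F.ι)) * Complex.I) • θ'.f (ex (-s) (u ∘ lz F H t)) := by
  obtain ⟨q, h1, h2, h3⟩ := T.sh p hp
  have m := meas_ulz h e u
  have m' := meas_ulz h' e' u'
  constructor
  · rw [h3 _ (bd_ex s m')]
    exact f_ex_shift T.isP (isOpen_Uz h' e'.le).measurableSet (full_Uz h' e'.le C.t T.isP T.cov) m'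
      (m'.comp (cont_rt (h'.Ht_nrm e' h1)).measurable) (fun ζ hζ => by
        rw [Function.comp_apply, Function.comp_apply, (lz_rt h' e' h1 hζ).2, map_add, h2]; rfl) s
  · rw [cov' p _ (bd_ex _ m)]
    exact f_ex_shift hθ' (isOpen_Uz h e.le).measurableSet (full_Uz h e.le C.s hθ' cov') m
      (m.comp (measurable_const_smul p⁻¹)) (fun ζ hζ => by
        rw [Function.comp_apply, Function.comp_apply, (lz_smul h e hp hζ).2, map_add]; rfl) (-s)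

/-- **The speeds are inverse to each other.** -/
theorem speed (T : Th C F F' t' L θ) (T' : Th C.swap F' F t L' θ') (h : Fl F) (h' : Fl F')
    [μ'.IsMulRightInvariant] (e : F.Ht H t) (e' : F'.Ht H' t') (hρ : ∀ x, t x = 0 → F.ρ x = 0)
    (hι : ∀ x, t x = 0 → t (x ∘ F.ι) = 0) (hL : ∀ x, t x = 0 → L x = 0) (hM : Moore (H : Set G))
    (hη : Hm H η) (fin : Fn C η θ) {a : G} (ha : a ∈ F.P Finset.univ) {b : G'} (hb : b ∈ F'.Z)
    (reg : ∀ i, 0 < F'.ℓ b i) (ab : t' (F'.ℓ b) = L (F.ℓ a)) (vol : F'.ρ (F'.ℓ b) ≤ F.ρ (F.ℓ a))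
    {u : X →L[ℝ] ℝ} {u' : X' →L[ℝ] ℝ}
    (c2 : ∀ p ∈ F'.P Finset.univ, u (L' (F'.ℓ p)) = u' (t' (F'.ℓ p ∘ F'.ι))) :
    ∀ p ∈ F.P Finset.univ, u' (L (F.ℓ p)) = u (t (F.ℓ p ∘ F.ι)) := by
  obtain ⟨S, h1, h2, c, h3, h4⟩ := fin
  have : Nontrivial K := ⟨⟨C.t.Ω, 0, fun e => by
    have := C.t.nΩ
    rw [e, norm_zero] at this
    exact zero_ne_one this⟩⟩
  obtain ⟨χ, hχ⟩ : ∃ χ : G → ℝ, χ = fun p => u' (L (F.ℓ p)) - u (t (F.ℓ p ∘ F.ι)) := ⟨_, rfl⟩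
  obtain ⟨Z, hZ⟩ : ∃ Z : ℝ → K →L[ℂ] K, Z = fun s => θ.f (ex s (u' ∘ lz F' H' t')) *
    θ'.f (ex (-s) (u ∘ lz F H t)) := ⟨_, rfl⟩
  have m := meas_ulz h e u
  have m' := meas_ulz h' e' u'
  have z1 : ∀ s, ∀ p ∈ F.P Finset.univ, C.s.π p * Z s * C.s.π p⁻¹ =
      Complex.exp (s * χ p * Complex.I) • Z s := fun s p hp => by
    obtain ⟨e1, e2⟩ := eig T T'.isP T'.cov h h' e e' u u' hp s
    rw [hZ, hχ, C.s.conj_mul, e1, e2, smul_mul_smul_comm, ← Complex.exp_add]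
    congr 2
    push_cast
    ring
  have z2 : ∀ s, ∀ p ∈ F'.P Finset.univ, Z s * C.t.π p = C.t.π p * Z s := fun s p hp => by
    obtain ⟨e1, e2⟩ := eig T' T.isP T.cov h' h e' e u' u hp (-s)
    rw [neg_neg] at e2
    refine comm_of_conj ?_
    rw [hZ, C.t.conj_mul]
    erw [e1, e2]
    rw [smul_mul_smul_comm, ← Complex.exp_add, c2 p hp]
    simp
  have z0 : ∀ s, Z s ≠ 0 := fun s h0 => by
    have h5 := congrArg (fun x => θ.f (ex (-s) (u' ∘ lz F' H' t')) * x *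
      θ'.f (ex s (u ∘ lz F H t))) h0
    simp only [hZ, ← mul_assoc, T.isP.ex_neg_mul s m', one_mul, T'.isP.ex_neg_mul s m, mul_zero,
      zero_mul] at h5
    exact one_ne_zero h5
  have key : ∀ (s : ℝ) (n : ℕ), Complex.exp (s * χ (a ^ (n + 1)) * Complex.I) = 1 →
      ∀ p ∈ F.P Finset.univ, Complex.exp (s * χ p * Complex.I) = 1 := fun s n hn p hp => by
    have aP := pow_mem ha (n + 1)
    have l1 : F.ℓ (a ^ (n + 1)) = ((n + 1 : ℕ) : ℝ) • F.ℓ a := by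
      induction n + 1 with
      | zero => rw [pow_zero, h.ℓ_one, Nat.cast_zero, zero_smul]
      | succ j ih => rw [pow_succ, h.ℓ_P (h.P_Ω (pow_mem ha j)) ha, ih, Nat.cast_succ, add_smul,
          one_smul]
    obtain ⟨z, hz⟩ := erg h' e' C T.isP T.cm T.cov hη (fun x hx => h.uni_Ht e hρ hx) hM
      (fun g hg => T.inv h' e' (e.le hg) (hL _ ((e g).1 hg).2)) (h.Ht_nrm e aP)
      (pow_mem hb (n + 1)) (fun i => by
        rw [h'.ℓ_pow hb, Pi.smul_apply, smul_eq_mul]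
        exact mul_pos (by positivity) (reg i))
      (T.sh' h' e' aP (h'.z_mem_P (pow_mem hb _) _) (by rw [h'.ℓ_pow hb, l1, map_smul, map_smul, ab]))
      (by
        rw [h.mdl_Ht e aP, h'.ℓ_pow hb, l1, map_smul, map_smul]
        exact smul_le_smul_of_nonneg_left vol (Nat.cast_nonneg _)) h1 h2 h3 h4 (x := Z s)
      (hZ ▸ cm_mul (T.cm _ (bd_ex _ m')) (T'.cm _ (bd_ex _ m)))
      (fun g hg => comm_of_conj (by
        rw [z1 s g (e.le hg), hχ]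
        simp [hL _ ((e g).1 hg).2, hι _ ((e g).1 hg).2]))
      (comm_of_conj (by rw [z1 s _ aP, hn, one_smul])) (z2 s)
    have h5 := z1 s p hp
    rw [conj_of_comm (by rw [hz, smul_mul_assoc, mul_smul_comm, one_mul, mul_one])] at h5
    exact smul_left_injective ℂ (z0 s) (h5.symm.trans (one_smul ℂ _).symm)
  have a0 : χ a = 0 := by_contra fun h0 => exp_pi h0 (key _ 1 (by
    have l2 : χ (a ^ (1 + 1)) = 2 * χ a := by
      rw [hχ]
      simp only [pow_succ, pow_zero, one_mul, h.ℓ_P (h.P_Ω ha) ha, map_add, Pi.add_comp]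
      ring
    rw [l2, ← Complex.ofReal_mul, mul_left_comm, div_mul_cancel₀ _ h0]
    push_cast
    exact Complex.exp_two_pi_mul_I) a ha)
  intro p hp
  refine sub_eq_zero.1 (by_contra fun h0 => exp_pi (x := χ p) (hχ ▸ h0) (key _ 0 ?_ p hp))
  simp [a0]

/-- **The magic relation from one matching of the speeds.** -/
theorem magic' (T : Th C F F' t' L θ) (T' : Th C.swap F' F t L' θ') (h : Fl F) (h' : Fl F')
    [μ.IsMulRightInvariant] (e : F.Ht H t) (e' : F'.Ht H' t') (hρ : ∀ x, t' x = 0 → F'.ρ x = 0)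
    (hι : ∀ x, t' x = 0 → t' (x ∘ F'.ι) = 0) (hL : ∀ x, t' x = 0 → L' x = 0)
    (hM : Moore (H' : Set G')) {η' : Measure G'} (hη : Hm H' η') (fin : Fn C.swap η' θ') {a : G'}
    (ha : a ∈ F'.P Finset.univ) {b : G} (hb : b ∈ F.Z) (reg : ∀ i, 0 < F.ℓ b i)
    (ab : t (F.ℓ b) = L' (F'.ℓ a)) (vol : F.ρ (F.ℓ b) ≤ F'.ρ (F'.ℓ a)) {u : X →L[ℝ] ℝ}
    {u' : X' →L[ℝ] ℝ} (c1 : ∀ p ∈ F.P Finset.univ, u' (L (F.ℓ p)) = u (t (F.ℓ p ∘ F.ι))) (s : ℝ) :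
    ∃ c : ℂ, θ.f (ex s (u' ∘ lz F' H' t')) = c • θ'.f (ex s (u ∘ lz F H t)) :=
  magic T T' h h' e e' (T'.er h' h e' e hρ hL hM hη fin ha hb reg ab vol).swap c1
    (speed T' T.ss h' h e' e hρ hι hL hM hη fin ha hb reg ab vol c1) s

/-- the functional `τ ∘ L ∘ ι` -/
noncomputable def tLi (F : FlD k G r) (L : (Fin r → ℝ) →ₗ[ℝ] X') (τ : X' →L[ℝ] ℝ) :
    (Fin r → ℝ) →L[ℝ] ℝ :=
  LinearMap.toContinuousLinearMap (τ.toLinearMap ∘ₗ L ∘ₗ LinearMap.funLeft ℝ ℝ F.ι)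

theorem tLi_apply (τ : X' →L[ℝ] ℝ) (x : Fin r → ℝ) : tLi F L τ x = τ (L (x ∘ F.ι)) := rfl

/-- **The magic relation on the full cones** -/
theorem magic_full {L : (Fin r → ℝ) →ₗ[ℝ] Fin r' → ℝ} {L' : (Fin r' → ℝ) →ₗ[ℝ] Fin r → ℝ}
    (T : Th C F F' .id L θ) (T' : Th C.swap F' F .id L' θ') (h : Fl F) (h' : Fl F')
    [μ.IsMulRightInvariant] (e : F.Ht H .id) (e' : F'.Ht H' .id) (hM : Moore (H' : Set G'))
    {η' : Measure G'} (hη : Hm H' η') (fin : Fn C.swap η' θ') {a : G'}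
    (ha : a ∈ F'.P Finset.univ) {b : G} (hb : b ∈ F.Z) (reg : ∀ i, 0 < F.ℓ b i)
    (ab : F.ℓ b = L' (F'.ℓ a)) (vol : F.ρ (F.ℓ b) ≤ F'.ρ (F'.ℓ a)) (τ : (Fin r' → ℝ) →L[ℝ] ℝ) :
    (∀ p ∈ F'.P Finset.univ, τ (L (L' (F'.ℓ p) ∘ F.ι)) = τ (F'.ℓ p ∘ F'.ι)) ∧ ∀ s,
      ∃ c : ℂ, θ.f (ex s (τ ∘ lz F' H' .id)) = c • θ'.f (ex s (tLi F L τ ∘ lz F H .id)) := by
  have c1 : ∀ p ∈ F.P Finset.univ, τ (L (F.ℓ p)) =
      tLi F L τ ((LinearMap.id : _ →ₗ[ℝ] _) (F.ℓ p ∘ F.ι)) := fun p _ => by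
    rw [tLi_apply, LinearMap.id_apply]
    congr 2
    funext i
    exact congrArg _ (h.ι_ι i).symm
  have z : ∀ x : Fin r' → ℝ, (LinearMap.id : _ →ₗ[ℝ] _) x = 0 → x = 0 := fun _ => id
  have hρ := fun x hx => (congrArg F'.ρ (z x hx)).trans (map_zero _)
  have hι : ∀ x : Fin r' → ℝ, (LinearMap.id : _ →ₗ[ℝ] _) x = 0 →
      (LinearMap.id : _ →ₗ[ℝ] _) (x ∘ F'.ι) = 0 := fun x hx => by rw [z x hx]; rfl
  have hL := fun x hx => (congrArg L' (z x hx)).trans (map_zero _)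
  exact ⟨speed T' T.ss h' h e' e hρ hι hL hM hη fin ha hb reg ab vol c1,
    magic' T T' h h' e e' hρ hι hL hM hη fin ha hb reg ab vol c1⟩

end Vale.Agent.P092EH
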